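import Mathlib
import Crest.Agent.Helper26.SW.Keyed

/-!
# S0453, WP D3r (insurance copy, helper69): the duality step of PROOF.md (2.3)

On top of helper26's averaging operators (`Avg`, `ThreeBody`, `Keyed`; no new definitions):

* `sum_cls_mul_avg`: on a class of a coarser relation, `avg r` can be moved off a function that
  is constant on `r`-classes;
* `classwise_of_L3`: the inequality `(L3)` on one `rT`-class (functions `h b` constant on
  `(r b)`-classes with sum `0` on the class: `∑ (∑_b h b)² ≤ c ∑ ∑_b (h b)²`) implies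
  `∑_b ∑_class (Q_b g)² ≤ c ∑_class g²` for `g` with sum `0` on the class
  (the hypothesis `hcl` of helper26's `fibre_of_classwise`);
* `three_body_of_L3`: the three-body bound from `(L3)` on every `rT`-class (`c = |S| - 1`);
* `three_body_keyed_of_L3`: the same in `Finset`/key form, with the conclusion of helper26's
  `three_body_keyed` verbatim (so it feeds `gap_keyed`).
-/

set_option autoImplicit false

namespace Crest.Agent.Helper69.SW

open Finset Crest.Agent.Helper26.SW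

variable {Ω : Type*} [Fintype Ω]

section One

variable (r : Setoid Ω) [DecidableRel r.r] (rT : Setoid Ω) [DecidableRel rT.r]

/-- For `r` finer than `rT` and `ψ` constant on `r`-classes, `avg r` can be moved off `φ` in
`∑_{x ∈ class} ψ x * avg r φ x`. -/
theorem sum_cls_mul_avg (hle : ∀ x y, r.r x y → rT.r x y) (x₀ : Ω) (ψ φ : Ω → ℝ)
    (hψ : ∀ x y, r.r x y → ψ x = ψ y) :
    ∑ x ∈ cls rT x₀, ψ x * avg r φ x = ∑ x ∈ cls rT x₀, ψ x * φ x := by
  classical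
  have hχc : ∀ x y, r.r x y →
      (if rT.r x₀ x then ψ x else 0) = (if rT.r x₀ y then ψ y else 0) := by
    intro x y hxy
    by_cases h : rT.r x₀ x
    · rw [if_pos h, if_pos (rT.trans h (hle x y hxy))]; exact hψ x y hxy
    · rw [if_neg h, if_neg (fun h' => h (rT.trans h' (rT.symm (hle x y hxy))))]
  have e1 : ∀ φ' : Ω → ℝ,
      ∑ x ∈ cls rT x₀, ψ x * φ' x = ∑ x, (if rT.r x₀ x then ψ x else 0) * φ' x := by
    intro φ'
    rw [cls, Finset.sum_filter]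
    refine Finset.sum_congr rfl (fun x _ => ?_)
    split_ifs <;> simp
  rw [e1, e1, ← sum_avg_mul r _ φ, avg_eq_self_of_const r hχc]

end One

section Three

variable {B : Type*} (S : Finset B) (r : B → Setoid Ω) [∀ b, DecidableRel (r b).r]
  (rT : Setoid Ω) [DecidableRel rT.r]

/-- **Duality (PROOF.md (2.3)).**  `(L3)` on the `rT`-class of `x₀` gives the fibre inequality
on that class. -/
theorem classwise_of_L3 (hle : ∀ b ∈ S, ∀ x y, (r b).r x y → rT.r x y) (c : ℝ) (hc : 0 ≤ c)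
    (x₀ : Ω)
    (hL3 : ∀ h : B → Ω → ℝ, (∀ b ∈ S, ∀ x y, (r b).r x y → h b x = h b y) →
        (∀ b ∈ S, ∑ x ∈ cls rT x₀, h b x = 0) →
        ∑ x ∈ cls rT x₀, (∑ b ∈ S, h b x) ^ 2 ≤ c * ∑ x ∈ cls rT x₀, ∑ b ∈ S, h b x ^ 2)
    (g : Ω → ℝ) (hg : ∑ y ∈ cls rT x₀, g y = 0) :
    ∑ b ∈ S, ∑ x ∈ cls rT x₀, avg (r b) g x ^ 2 ≤ c * ∑ x ∈ cls rT x₀, g x ^ 2 := by
  have hconst : ∀ b ∈ S, ∀ x y, (r b).r x y → avg (r b) g x = avg (r b) g y :=
    fun b _ x y hxy => avg_eq_of_rel (r b) g hxy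
  have hsum0 : ∀ b ∈ S, ∑ x ∈ cls rT x₀, avg (r b) g x = 0 := by
    intro b hb
    have := sum_cls_mul_avg (r b) rT (hle b hb) x₀ (fun _ => 1) g (fun _ _ _ => rfl)
    simp only [one_mul] at this
    rw [this]; exact hg
  have hsq : ∀ b ∈ S, ∑ x ∈ cls rT x₀, avg (r b) g x ^ 2
      = ∑ x ∈ cls rT x₀, g x * avg (r b) g x := by
    intro b hb
    have := sum_cls_mul_avg (r b) rT (hle b hb) x₀ (avg (r b) g) g (hconst b hb)
    calc ∑ x ∈ cls rT x₀, avg (r b) g x ^ 2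
        = ∑ x ∈ cls rT x₀, avg (r b) g x * avg (r b) g x :=
          Finset.sum_congr rfl (fun x _ => sq _)
      _ = ∑ x ∈ cls rT x₀, avg (r b) g x * g x := this
      _ = ∑ x ∈ cls rT x₀, g x * avg (r b) g x :=
          Finset.sum_congr rfl (fun x _ => mul_comm _ _)
  have hL := hL3 (fun b => avg (r b) g) hconst hsum0
  have hcomm : ∑ x ∈ cls rT x₀, ∑ b ∈ S, avg (r b) g x ^ 2
      = ∑ b ∈ S, ∑ x ∈ cls rT x₀, avg (r b) g x ^ 2 := Finset.sum_comm
  have hS₀ : ∑ b ∈ S, ∑ x ∈ cls rT x₀, avg (r b) g x ^ 2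
      = ∑ x ∈ cls rT x₀, g x * (∑ b ∈ S, avg (r b) g x) := by
    rw [Finset.sum_congr rfl hsq, Finset.sum_comm]
    exact Finset.sum_congr rfl (fun x _ => (Finset.mul_sum _ _ _).symm)
  have hCS : (∑ x ∈ cls rT x₀, g x * (∑ b ∈ S, avg (r b) g x)) ^ 2
      ≤ (∑ x ∈ cls rT x₀, g x ^ 2) * (∑ x ∈ cls rT x₀, (∑ b ∈ S, avg (r b) g x) ^ 2) :=
    Finset.sum_mul_sq_le_sq_mul_sq _ _ _
  rw [← hS₀] at hCS
  rw [hcomm] at hL
  have hS₀nn : 0 ≤ ∑ b ∈ S, ∑ x ∈ cls rT x₀, avg (r b) g x ^ 2 :=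
    Finset.sum_nonneg (fun b _ => Finset.sum_nonneg (fun x _ => sq_nonneg _))
  have hGnn : 0 ≤ ∑ x ∈ cls rT x₀, g x ^ 2 := Finset.sum_nonneg (fun x _ => sq_nonneg _)
  generalize (∑ b ∈ S, ∑ x ∈ cls rT x₀, avg (r b) g x ^ 2) = S₀ at hCS hL hS₀nn ⊢
  generalize (∑ x ∈ cls rT x₀, g x ^ 2) = G at hCS hGnn ⊢
  generalize (∑ x ∈ cls rT x₀, (∑ b ∈ S, avg (r b) g x) ^ 2) = H at hCS hL
  have h2 : S₀ ^ 2 ≤ G * (c * S₀) := le_trans hCS (mul_le_mul_of_nonneg_left hL hGnn)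
  rcases hS₀nn.eq_or_lt with h0 | hpos
  · rw [← h0]; exact mul_nonneg hc hGnn
  · have h3 : S₀ * S₀ ≤ (c * G) * S₀ := by nlinarith [h2]
    exact le_of_mul_le_mul_right h3 hpos

/-- **(3B) from `(L3)` on every `rT`-class** (constant `|S| - 1`; for triples: `2`). -/
theorem three_body_of_L3 (hle : ∀ b ∈ S, ∀ x y, (r b).r x y → rT.r x y)
    (hL3 : ∀ (x₀ : Ω) (h : B → Ω → ℝ), (∀ b ∈ S, ∀ x y, (r b).r x y → h b x = h b y) →
        (∀ b ∈ S, ∑ x ∈ cls rT x₀, h b x = 0) →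
        ∑ x ∈ cls rT x₀, (∑ b ∈ S, h b x) ^ 2
          ≤ ((S.card : ℝ) - 1) * ∑ x ∈ cls rT x₀, ∑ b ∈ S, h b x ^ 2)
    (f : Ω → ℝ) :
    ∑ x, f x * (∑ b ∈ S, res (r b) f x) ≤ ∑ x, (∑ b ∈ S, res (r b) f x) ^ 2 := by
  rcases S.eq_empty_or_nonempty with hS | hS
  · subst hS; simp
  · have hc : (0 : ℝ) ≤ (S.card : ℝ) - 1 := by
      have : (1 : ℝ) ≤ (S.card : ℝ) := by exact_mod_cast Finset.card_pos.mpr hS
      linarith
    exact three_body_of_fibre S r rT hle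
      (fibre_of_classwise S r rT _
        (fun x₀ g hz => classwise_of_L3 S r rT hle _ hc x₀ (hL3 x₀) g hz)) f

end Three

section Keyed

variable {α β γ B : Type*} [DecidableEq β] [DecidableEq γ]

/-- Sums over a key-fibre of `Om` as sums over the class in the subtype. -/
theorem sum_filter_key_eq (Om : Finset α) (κT : α → γ) (x₀ : {x // x ∈ Om}) (Φ : α → ℝ) :
    ∑ y ∈ Om.filter (fun y => κT y = κT x₀.1), Φ y
      = ∑ x ∈ cls (keySetoid Om κT) x₀, Φ x.1 := by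
  rw [← cls_keySetoid_map, Finset.sum_map]
  rfl

/-- **D3r, `Finset`/key form.**  `(L3)` on every `κT`-fibre of `Om` gives the three-body bound
(conclusion = that of helper26's `three_body_keyed`). -/
theorem three_body_keyed_of_L3 (Om : Finset α) (S : Finset B) (κ : B → α → β) (κT : α → γ)
    (hle : ∀ b ∈ S, ∀ x ∈ Om, ∀ y ∈ Om, κ b x = κ b y → κT x = κT y)
    (hL3 : ∀ x₀ ∈ Om, ∀ h : B → α → ℝ,
        (∀ b ∈ S, ∀ x ∈ Om, ∀ y ∈ Om, κ b x = κ b y → h b x = h b y) →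
        (∀ b ∈ S, ∑ x ∈ Om.filter (fun x => κT x = κT x₀), h b x = 0) →
        ∑ x ∈ Om.filter (fun x => κT x = κT x₀), (∑ b ∈ S, h b x) ^ 2
          ≤ ((S.card : ℝ) - 1) * ∑ x ∈ Om.filter (fun x => κT x = κT x₀), ∑ b ∈ S, h b x ^ 2)
    (f : α → ℝ) :
    ∑ x ∈ Om, f x * (∑ b ∈ S, (f x - cavg Om (κ b) f x))
      ≤ ∑ x ∈ Om, (∑ b ∈ S, (f x - cavg Om (κ b) f x)) ^ 2 := by
  classical
  have key := three_body_of_L3 (Ω := {x // x ∈ Om}) S (fun b => keySetoid Om (κ b))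
    (keySetoid Om κT) ?_ ?_ (fun x => f x.1)
  · simp only [res_apply, avg_keySetoid] at key
    rw [Finset.sum_coe_sort Om (fun x => f x * (∑ b ∈ S, (f x - cavg Om (κ b) f x))),
      Finset.sum_coe_sort Om (fun x => (∑ b ∈ S, (f x - cavg Om (κ b) f x)) ^ 2)] at key
    exact key
  · intro b hb x y hxy
    exact hle b hb x.1 x.2 y.1 y.2 hxy
  · intro x₀ h hconst hsum
    have h1 := hL3 x₀.1 x₀.2 (fun b => ext0 Om (h b)) ?_ ?_
    · rw [sum_filter_key_eq Om κT x₀ (fun y => (∑ b ∈ S, ext0 Om (h b) y) ^ 2),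
        sum_filter_key_eq Om κT x₀ (fun y => ∑ b ∈ S, ext0 Om (h b) y ^ 2)] at h1
      simp only [ext0_coe] at h1
      exact h1
    · intro b hb x hx y hy hxy
      have e1 := ext0_coe Om (h b) ⟨x, hx⟩
      have e2 := ext0_coe Om (h b) ⟨y, hy⟩
      simp only at e1 e2
      rw [e1, e2]
      exact hconst b hb ⟨x, hx⟩ ⟨y, hy⟩ hxy
    · intro b hb
      rw [sum_filter_key_eq Om κT x₀ (fun y => ext0 Om (h b) y)]
      simp only [ext0_coe]
      exact hsum b hb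

end Keyed

end Crest.Agent.Helper69.SW
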